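import Vale.Agent.P064.H444.Act

/-!
Graphs: the logarithm of the number of edges instead of the logarithm of the number of vertices,
and error probability `ε`.
-/

namespace Vale.Agent.P064.Act

open SimpleGraph MeasureTheory Finset Vale.Agent.P064
open scoped Pointwise

theorem exists_adj {W : Type*} {H : SimpleGraph W} (hH : H ≠ ⊥) : ∃ a b, H.Adj a b := by
  by_contra hcon
  push Not at hcon
  apply hH
  ext a b
  simp [hcon a b]

theorem img_nonempty {W : Type*} {n : ℕ} {H : SimpleGraph W} (hH : H ≠ ⊥) (j : W ↪ Fin n) :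
    (img H j).Nonempty := by
  obtain ⟨a, b, hab⟩ := exists_adj hH
  have hne : j a ≠ j b := fun h => hab.ne (j.injective h)
  exact ⟨mkPair (j a) (j b) hne, (mem_img _ _ _).2 ⟨a, b, hab, rfl⟩⟩

theorem pE_pos' {W : Type*} [Fintype W] {n : ℕ} {H : SimpleGraph W} (hH : H ≠ ⊥)
    (j : W ↪ Fin n) : 0 < pE n H := by
  classical
  obtain ⟨⟨p, hpE, hp⟩, _⟩ := pE_isLeast H j
  rw [← hpE]
  have hp0 : (0 : ℝ) ≤ p := p.2.1
  have hstab := stab_bound H j p hp
  rcases hp0.eq_or_lt with h0 | h0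
  · exfalso
    obtain ⟨e, he⟩ := img_nonempty hH j
    have h1 := hstab {e} (by rwa [Finset.singleton_subset_iff])
    rw [← h0, Finset.card_singleton, pow_one, mul_zero, mul_zero] at h1
    have h2 : 0 < (univ.filter (fun g : Equiv.Perm (Fin n) =>
        g • ({e} : Finset (Pair n)) = {e})).card := by
      rw [Finset.card_pos]
      exact ⟨1, by simp⟩
    have h3 : (0 : ℝ) < ((univ.filter (fun g : Equiv.Perm (Fin n) =>
        g • ({e} : Finset (Pair n)) = {e})).card : ℝ) := by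
      exact_mod_cast h2
    linarith
  · exact h0

/-- A copy of `H` appears with probability at least `1 - ε`. -/
theorem graph_eps {W : Type*} [Fintype W] {n : ℕ} {H : SimpleGraph W} (hH : H ≠ ⊥)
    (j : W ↪ Fin n) {ε : ℝ} (hε0 : 0 < ε) (hε1 : ε ≤ 1 / 2) (P : unitInterval)
    (hP : 384 * 2 ^ 72 * pE n H * Real.log ((H.edgeSet.ncard + 1) / ε) ≤ P) :
    1 - ε ≤ probCopy n H P := by
  classical
  have hpos := pE_pos' hH j
  obtain ⟨⟨p, hpE, hp⟩, _⟩ := pE_isLeast H j
  rw [← hpE] at hP hpos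
  have hstab := stab_bound H j p hp
  have hq : ∀ F, F ⊆ img H j → F.Nonempty →
      ((univ.filter (fun g : Equiv.Perm (Fin n) => g • F = F)).card : ℝ)
        ≤ Fintype.card (Equiv.Perm (Fin n)) * (2 * (p : ℝ)) ^ F.card := by
    intro F hF hne
    refine (hstab F hF).trans ?_
    rw [mul_pow]
    have h1 : (2 : ℝ) ≤ 2 ^ F.card := by
      calc (2 : ℝ) = 2 ^ 1 := by norm_num
        _ ≤ 2 ^ F.card := pow_le_pow_right₀ (by norm_num) (Finset.card_pos.2 hne)
    have h2 : (0 : ℝ) ≤ Fintype.card (Equiv.Perm (Fin n)) * (p : ℝ) ^ F.card := by positivity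
    nlinarith
  have hc : (img H j).card = H.edgeSet.ncard := card_img H j
  obtain ⟨N, hN1, hN2, hN3⟩ := rounds_exist (Finset.card_pos.2 (img_nonempty hH j)) hε0 hε1
  rw [hc] at hN3
  have h := abs_threshold_eps (G := Equiv.Perm (Fin n)) (img H j) (2 * (p : ℝ)) (by positivity)
    hq N hN1 ε P hN2 ?_ P.2.2
  · refine h.trans ?_
    rw [probCopy_eq]
    apply ES_mono P.2.1 P.2.2
    intro Z _
    split_ifs with h1 h2 h2
    · exact le_rfl
    · exfalso
      apply h2
      obtain ⟨g, hg⟩ := h1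
      rw [smul_img] at hg
      rw [copyCount_pos]
      exact ⟨(copyEquiv H Z).symm ⟨_, hg⟩⟩
    · exact zero_le_one
    · exact le_rfl
  · refine le_trans ?_ hP
    have h1 : (0 : ℝ) ≤ 48 * 2 ^ 72 * (p : ℝ) := by positivity
    calc 24 * 2 ^ 72 * (N : ℝ) * (2 * (p : ℝ)) = 48 * 2 ^ 72 * (p : ℝ) * N := by ring
      _ ≤ 48 * 2 ^ 72 * (p : ℝ) * (8 * Real.log ((H.edgeSet.ncard + 1) / ε)) :=
        mul_le_mul_of_nonneg_left hN3 h1
      _ = _ := by ring

/-- The second Kahn-Kalai bound with `log (e(H) + 1)`. -/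
theorem graph_pc {W : Type*} [Fintype W] {n : ℕ} {H : SimpleGraph W} (hH : H ≠ ⊥)
    (j : W ↪ Fin n) :
    pc n H ≤ 768 * 2 ^ 72 * pE n H * Real.log (H.edgeSet.ncard + 1) := by
  have hpos := pE_pos' hH j
  have hcard : (1 : ℝ) ≤ H.edgeSet.ncard := by
    rw [← card_img H j]
    exact_mod_cast Finset.card_pos.2 (img_nonempty hH j)
  have hlog : Real.log ((H.edgeSet.ncard + 1) / (1 / 2)) ≤
      2 * Real.log (H.edgeSet.ncard + 1) := by
    rw [Real.log_div (by positivity) (by norm_num)]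
    have h1 : Real.log 2 ≤ Real.log ((H.edgeSet.ncard : ℝ) + 1) :=
      Real.log_le_log (by norm_num) (by linarith)
    have h2 : Real.log (1 / 2) = - Real.log 2 := by rw [one_div, Real.log_inv]
    linarith
  have hlog0 : 0 ≤ Real.log ((H.edgeSet.ncard : ℝ) + 1) := Real.log_nonneg (by linarith)
  by_cases hle : 768 * 2 ^ 72 * pE n H * Real.log (H.edgeSet.ncard + 1) ≤ 1
  · have hnn : 0 ≤ 768 * 2 ^ 72 * pE n H * Real.log (H.edgeSet.ncard + 1) := by positivity
    apply (pc_isLeast H j).2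
    refine ⟨⟨_, hnn, hle⟩, rfl, ?_⟩
    have h := graph_eps hH j (ε := 1 / 2) (by norm_num) le_rfl ⟨_, hnn, hle⟩ ?_
    · linarith
    · have h1 : (0 : ℝ) ≤ 384 * 2 ^ 72 * pE n H := by positivity
      calc 384 * 2 ^ 72 * pE n H * Real.log ((H.edgeSet.ncard + 1) / (1 / 2))
          ≤ 384 * 2 ^ 72 * pE n H * (2 * Real.log (H.edgeSet.ncard + 1)) :=
            mul_le_mul_of_nonneg_left hlog h1
        _ = _ := by ring
  · exact (pc_le_one H j).trans (le_of_lt (not_le.1 hle))

/-- Hypergraphs: the special case of the symmetric group acting on the `r`-subsets. -/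
theorem hyper_pc {n r : ℕ} {H : Finset (Set.powersetCard (Fin n) r)} (hH : H.Nonempty) :
    thr (Equiv.Perm (Fin n)) H ≤
      768 * 2 ^ 72 * expThr (Equiv.Perm (Fin n)) H * Real.log (H.card + 1) :=
  thr_le (Equiv.Perm (Fin n)) hH

end Vale.Agent.P064.Act
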