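import Vale.Agent.P064.H444.Main

/-!
The threshold theorem for a finite group acting on a finite set.
-/

set_option linter.unusedSectionVars false

namespace Vale.Agent.P064.Act

open Finset Vale.Agent.P064
open scoped Pointwise

section Basic

variable {X : Type*} [Fintype X] [DecidableEq X]

theorem weight_eq (p : ℝ) (W : Finset X) : weight p W = wtS p univ W := by
  unfold weight wtS
  rw [Finset.prod_ite, Finset.prod_const, Finset.prod_const]
  congr 2
  · congr 1
    ext x
    simp
  · rw [← Finset.card_compl]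
    congr 1
    ext x
    simp

variable (G : Type*) [Group G] [Fintype G] [MulAction G X]

open Classical in
theorem probTranslate_eq (H : Finset X) (p : ℝ) :
    probTranslate G H p = ES p univ (fun W => if ∃ g : G, g • H ⊆ W then (1 : ℝ) else 0) := by
  unfold probTranslate ES
  rw [Finset.powerset_univ]
  apply Finset.sum_congr rfl
  intro W _
  rw [weight_eq]
  by_cases h : ∃ g : G, g • H ⊆ W
  · simp [h]
  · simp [h]

theorem mem_translates (F T : Finset X) : T ∈ translates G F ↔ ∃ g : G, g • F = T := by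
  simp [translates]

theorem card_of_mem_translates {F T : Finset X} (h : T ∈ translates G F) : T.card = F.card := by
  obtain ⟨g, rfl⟩ := (mem_translates G F T).1 h
  exact Finset.card_smul_finset g F

theorem expTranslates_eq (F : Finset X) (p : ℝ) :
    expTranslates G F p = ((translates G F).card : ℝ) * p ^ F.card := by
  have h1 : expTranslates G F p = ES p univ (fun W => ∑ T ∈ translates G F,
      if T ⊆ W then (1 : ℝ) else 0) := by
    unfold expTranslates ES
    rw [Finset.powerset_univ]
    apply Finset.sum_congr rfl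
    intro W _
    rw [weight_eq]
    congr 1
    unfold numIn
    rw [Finset.card_filter]
    push_cast
    rfl
  rw [h1, ES_sumB]
  have h2 : ∀ T ∈ translates G F, ES p univ (fun W => if T ⊆ W then (1 : ℝ) else 0)
      = p ^ F.card := by
    intro T hT
    rw [ES_subsetB p univ T (subset_univ T), card_of_mem_translates G hT]
  rw [Finset.sum_congr rfl h2, Finset.sum_const, nsmul_eq_mul]

/-- All fibres of `g ↦ g • F` over translates have the size of the stabilizer. -/
theorem card_fibre (F T : Finset X) (hT : T ∈ translates G F) :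
    (univ.filter fun g : G => g • F = T).card = (univ.filter fun g : G => g • F = F).card := by
  obtain ⟨g₀, hg₀⟩ := (mem_translates G F T).1 hT
  refine Finset.card_bij' (fun a _ => g₀⁻¹ * a) (fun a _ => g₀ * a) ?_ ?_ ?_ ?_
  · intro a ha
    simp only [mem_filter, mem_univ, true_and] at ha ⊢
    rw [mul_smul, ha, ← hg₀, inv_smul_smul]
  · intro a ha
    simp only [mem_filter, mem_univ, true_and] at ha ⊢
    rw [mul_smul, ha, hg₀]
  · intro a _
    simp
  · intro a _
    simp

theorem numIn_mul (F W : Finset X) :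
    numIn G F W * (univ.filter fun g : G => g • F = F).card =
      (univ.filter fun g : G => g • F ⊆ W).card := by
  unfold numIn
  have h : ∀ g ∈ (univ.filter fun g : G => g • F ⊆ W), g • F ∈
      ((translates G F).filter fun T => T ⊆ W) := by
    intro g hg
    rw [mem_filter] at hg ⊢
    exact ⟨(mem_translates G F _).2 ⟨g, rfl⟩, hg.2⟩
  rw [Finset.card_eq_sum_card_fiberwise h, Finset.sum_const_nat]
  intro T hT
  rw [mem_filter] at hT
  rw [← card_fibre G F T hT.1]
  congr 1
  ext g
  simp only [mem_filter, mem_univ, true_and]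
  constructor
  · rintro ⟨_, h2⟩
    exact h2
  · intro h2
    exact ⟨h2 ▸ hT.2, h2⟩

theorem card_translates_mul (F : Finset X) :
    (translates G F).card * (univ.filter fun g : G => g • F = F).card = Fintype.card G := by
  have h := numIn_mul G F univ
  unfold numIn at h
  simpa using h

theorem stab_pos (F : Finset X) : 0 < (univ.filter fun g : G => g • F = F).card := by
  rw [Finset.card_pos]
  exact ⟨1, by simp⟩

theorem translates_pos (F : Finset X) : 0 < (translates G F).card := by
  rw [Finset.card_pos]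
  exact ⟨F, (mem_translates G F F).2 ⟨1, one_smul G F⟩⟩

theorem numIn_pos {F W : Finset X} (h : F ⊆ W) : 1 ≤ numIn G F W := by
  unfold numIn
  rw [Nat.one_le_iff_ne_zero, ← Nat.pos_iff_ne_zero, Finset.card_pos]
  exact ⟨F, mem_filter.2 ⟨(mem_translates G F F).2 ⟨1, one_smul G F⟩, h⟩⟩

theorem numIn_le (F W : Finset X) : numIn G F W ≤ (translates G F).card :=
  Finset.card_filter_le _ _

theorem continuous_probTranslate (H : Finset X) : Continuous (probTranslate G H) := by
  classical
  have : probTranslate G H = fun p => ES p univ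
      (fun W => if ∃ g : G, g • H ⊆ W then (1 : ℝ) else 0) := by
    funext p
    rw [probTranslate_eq]
  rw [this]
  exact continuous_ES _ _

theorem continuous_expTranslates (F : Finset X) : Continuous (expTranslates G F) := by
  have : expTranslates G F = fun p => ((translates G F).card : ℝ) * p ^ F.card := by
    funext p
    exact expTranslates_eq G F p
  rw [this]
  fun_prop

theorem isLeast_of_closed' (S : Set ℝ) (hS : IsClosed S) (h1 : (1 : ℝ) ∈ S) :
    IsLeast {p : ℝ | 0 ≤ p ∧ p ≤ 1 ∧ p ∈ S} (sInf {p : ℝ | 0 ≤ p ∧ p ≤ 1 ∧ p ∈ S}) := by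
  have h : {p : ℝ | 0 ≤ p ∧ p ≤ 1 ∧ p ∈ S} = Set.Icc 0 1 ∩ S := by
    ext p
    simp [and_assoc]
  rw [h]
  exact (isCompact_Icc.inter_right hS).isLeast_sInf ⟨1, ⟨by simp, h1⟩⟩

theorem probTranslate_one (H : Finset X) : 1 / 2 ≤ probTranslate G H 1 := by
  classical
  rw [probTranslate_eq]
  have h := ES_subsetB (1 : ℝ) univ H (subset_univ _)
  rw [one_pow] at h
  have h2 : ES (1 : ℝ) univ (fun Z => if H ⊆ Z then (1 : ℝ) else 0)
      ≤ ES (1 : ℝ) univ (fun W => if ∃ g : G, g • H ⊆ W then (1 : ℝ) else 0) := by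
    apply ES_mono zero_le_one le_rfl
    intro Z _
    split_ifs with h1 h2 h2
    · exact le_rfl
    · exfalso
      apply h2
      exact ⟨1, by simpa using h1⟩
    · exact zero_le_one
    · exact le_rfl
  have h3 : (1 : ℝ) / 2 ≤ 1 := by norm_num
  calc (1 : ℝ) / 2 ≤ 1 := h3
    _ = ES (1 : ℝ) univ (fun Z => if H ⊆ Z then (1 : ℝ) else 0) := h.symm
    _ ≤ _ := h2

/-- The minimum defining the threshold is attained. -/
theorem thr_isLeast (H : Finset X) :
    IsLeast {p : ℝ | 0 ≤ p ∧ p ≤ 1 ∧ 1 / 2 ≤ probTranslate G H p} (thr G H) :=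
  isLeast_of_closed' {p : ℝ | 1 / 2 ≤ probTranslate G H p}
    (isClosed_le continuous_const (continuous_probTranslate G H)) (probTranslate_one G H)

/-- The minimum defining the expectation threshold is attained. -/
theorem expThr_isLeast (H : Finset X) :
    IsLeast {p : ℝ | 0 ≤ p ∧ p ≤ 1 ∧ ∀ F ⊆ H, 1 / 2 ≤ expTranslates G F p} (expThr G H) := by
  apply isLeast_of_closed' {p : ℝ | ∀ F ⊆ H, 1 / 2 ≤ expTranslates G F p}
  · have : {p : ℝ | ∀ F ⊆ H, 1 / 2 ≤ expTranslates G F p}
        = ⋂ F : Finset X, ⋂ _ : F ⊆ H, {p : ℝ | 1 / 2 ≤ expTranslates G F p} := by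
      ext p
      simp
    rw [this]
    apply isClosed_iInter
    intro F
    apply isClosed_iInter
    intro _
    exact isClosed_le continuous_const (continuous_expTranslates G F)
  · intro F _
    rw [expTranslates_eq, one_pow, mul_one]
    have : (1 : ℝ) ≤ ((translates G F).card : ℝ) := by exact_mod_cast translates_pos G F
    linarith

/-- The minimum defining the larger expectation threshold is attained. -/
theorem expThr'_isLeast (H : Finset X) :
    IsLeast {p : ℝ | 0 ≤ p ∧ p ≤ 1 ∧ ∀ F ⊆ H, (numIn G F H : ℝ) / 2 ≤ expTranslates G F p}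
      (expThr' G H) := by
  apply isLeast_of_closed' {p : ℝ | ∀ F ⊆ H, (numIn G F H : ℝ) / 2 ≤ expTranslates G F p}
  · have : {p : ℝ | ∀ F ⊆ H, (numIn G F H : ℝ) / 2 ≤ expTranslates G F p}
        = ⋂ F : Finset X, ⋂ _ : F ⊆ H,
          {p : ℝ | (numIn G F H : ℝ) / 2 ≤ expTranslates G F p} := by
      ext p
      simp
    rw [this]
    apply isClosed_iInter
    intro F
    apply isClosed_iInter
    intro _
    exact isClosed_le continuous_const (continuous_expTranslates G F)
  · intro F _
    rw [expTranslates_eq, one_pow, mul_one]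
    have h1 : (numIn G F H : ℝ) ≤ ((translates G F).card : ℝ) := by
      exact_mod_cast numIn_le G F H
    have h2 : (0 : ℝ) ≤ (numIn G F H : ℝ) := Nat.cast_nonneg _
    linarith

/-- The expectation threshold is positive for nonempty `H`. -/
theorem expThr_pos {H : Finset X} (hH : H.Nonempty) : 0 < expThr G H := by
  obtain ⟨⟨h0, h1, h2⟩, _⟩ := expThr_isLeast G H
  rcases h0.eq_or_lt with h | h
  · exfalso
    have h3 := h2 H (Subset.refl _)
    rw [expTranslates_eq, ← h, zero_pow (Finset.card_pos.2 hH).ne', mul_zero] at h3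
    norm_num at h3
  · exact h

/-- Stabilizers of subsets are small. -/
theorem stab_le {H : Finset X} (hH : H.Nonempty) (F : Finset X) (hF : F ⊆ H)
    (hne : F.Nonempty) : ((univ.filter fun g : G => g • F = F).card : ℝ) ≤
      Fintype.card G * (2 * expThr G H) ^ F.card := by
  obtain ⟨⟨h0, h1, h2⟩, _⟩ := expThr_isLeast G H
  have hp := expThr_pos G hH
  have h3 := h2 F hF
  rw [expTranslates_eq] at h3
  have h4 : ((translates G F).card : ℝ) * ((univ.filter fun g : G => g • F = F).card : ℝ)
      = Fintype.card G := by exact_mod_cast card_translates_mul G F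
  have h5 : (0 : ℝ) < ((univ.filter fun g : G => g • F = F).card : ℝ) := by
    exact_mod_cast stab_pos G F
  have h6 : (2 : ℝ) ≤ 2 ^ F.card := by
    calc (2 : ℝ) = 2 ^ 1 := by norm_num
      _ ≤ 2 ^ F.card := pow_le_pow_right₀ (by norm_num) (Finset.card_pos.2 hne)
  set s : ℝ := ((univ.filter fun g : G => g • F = F).card : ℝ)
  set t : ℝ := ((translates G F).card : ℝ)
  set e : ℝ := expThr G H ^ F.card with he
  have he0 : 0 < e := pow_pos hp _
  have h7 : s ≤ 2 * (s * (t * e)) := by nlinarith
  have h8 : (Fintype.card G : ℝ) * (2 * expThr G H) ^ F.card = 2 ^ F.card * (s * (t * e)) := by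
    rw [← h4, mul_pow, ← he]; ring
  rw [h8]
  have h9 : 0 ≤ s * (t * e) := by
    have ht : (0 : ℝ) ≤ t := Nat.cast_nonneg _
    positivity
  nlinarith

theorem expThr_le_expThr' (H : Finset X) : expThr G H ≤ expThr' G H := by
  obtain ⟨⟨h0, h1, h2⟩, _⟩ := expThr'_isLeast G H
  apply (expThr_isLeast G H).2
  refine ⟨h0, h1, ?_⟩
  intro F hF
  refine le_trans ?_ (h2 F hF)
  have h3 : (1 : ℝ) ≤ (numIn G F H : ℝ) := by exact_mod_cast numIn_pos G hF
  linarith

theorem expThr'_le_expThr {H : Finset X} (hH : H.Nonempty) :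
    expThr' G H ≤ 2 ^ 60 * expThr G H := by
  obtain ⟨⟨h0, h1, _⟩, _⟩ := expThr'_isLeast G H
  have hp := expThr_pos G hH
  by_cases hle : 2 ^ 60 * expThr G H ≤ 1
  · apply (expThr'_isLeast G H).2
    refine ⟨by positivity, hle, ?_⟩
    intro F hF
    have h := Ctx.spread_const (G := G) H (2 * expThr G H) (by positivity)
      (fun F hF hne => stab_le G hH F hF hne) F
    have e : (2 : ℝ) ^ 59 * (2 * expThr G H) = 2 ^ 60 * expThr G H := by ring
    rw [e] at h
    have h4 : ((translates G F).card : ℝ) * ((univ.filter fun g : G => g • F = F).card : ℝ)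
      = Fintype.card G := by exact_mod_cast card_translates_mul G F
    have h5 : (numIn G F H : ℝ) * ((univ.filter fun g : G => g • F = F).card : ℝ)
      = ((univ.filter fun g : G => g • F ⊆ H).card : ℝ) := by
      exact_mod_cast numIn_mul G F H
    have h6 : (0 : ℝ) < ((univ.filter fun g : G => g • F = F).card : ℝ) := by
      exact_mod_cast stab_pos G F
    rw [← h5, ← h4] at h
    have h7 : (numIn G F H : ℝ) ≤ ((translates G F).card : ℝ) * (2 ^ 60 * expThr G H) ^ F.card := by
      apply le_of_mul_le_mul_right _ h6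
      calc _ ≤ _ := h
        _ = _ := by ring
    rw [expTranslates_eq]
    have h8 : (0 : ℝ) ≤ (numIn G F H : ℝ) := Nat.cast_nonneg _
    refine le_trans ?_ h7
    linarith
  · exact h1.trans (le_of_lt (not_le.1 hle))

/-- **Threshold theorem for group actions, with error probability `ε`.** -/
theorem threshold_eps {H : Finset X} (hH : H.Nonempty) {ε : ℝ} (hε0 : 0 < ε) (hε1 : ε ≤ 1 / 2)
    {p : ℝ} (hp : 384 * 2 ^ 72 * expThr G H * Real.log ((H.card + 1) / ε) ≤ p) (hp1 : p ≤ 1) :
    1 - ε ≤ probTranslate G H p := by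
  classical
  have hpos := expThr_pos G hH
  obtain ⟨N, hN1, hN2, hN3⟩ := rounds_exist (Finset.card_pos.2 hH) hε0 hε1
  have h := abs_threshold_eps (G := G) H (2 * expThr G H) (by positivity)
    (fun F hF hne => stab_le G hH F hF hne) N hN1 ε p hN2 ?_ hp1
  · rw [probTranslate_eq]
    refine h.trans (le_of_eq ?_)
    apply Multi.ES_congr
    intro W _
    congr
  · refine le_trans ?_ hp
    have h1 : (0 : ℝ) ≤ 48 * 2 ^ 72 * expThr G H := by positivity
    calc 24 * 2 ^ 72 * (N : ℝ) * (2 * expThr G H) = 48 * 2 ^ 72 * expThr G H * N := by ring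
      _ ≤ 48 * 2 ^ 72 * expThr G H * (8 * Real.log ((H.card + 1) / ε)) :=
        mul_le_mul_of_nonneg_left hN3 h1
      _ = _ := by ring

/-- **The second Kahn-Kalai bound for group actions.** -/
theorem thr_le {H : Finset X} (hH : H.Nonempty) :
    thr G H ≤ 768 * 2 ^ 72 * expThr G H * Real.log (H.card + 1) := by
  have hpos := expThr_pos G hH
  have hcard : (1 : ℝ) ≤ H.card := by exact_mod_cast Finset.card_pos.2 hH
  have hlog : Real.log ((H.card + 1) / (1 / 2)) ≤ 2 * Real.log (H.card + 1) := by
    rw [Real.log_div (by positivity) (by norm_num)]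
    have h1 : Real.log 2 ≤ Real.log ((H.card : ℝ) + 1) :=
      Real.log_le_log (by norm_num) (by linarith)
    have h2 : Real.log (1 / 2) = - Real.log 2 := by rw [one_div, Real.log_inv]
    linarith
  have hlog0 : 0 ≤ Real.log ((H.card : ℝ) + 1) := Real.log_nonneg (by linarith)
  by_cases hle : 768 * 2 ^ 72 * expThr G H * Real.log (H.card + 1) ≤ 1
  · apply (thr_isLeast G H).2
    refine ⟨by positivity, hle, ?_⟩
    have h := threshold_eps G hH (ε := 1 / 2) (by norm_num) le_rfl
      (p := 768 * 2 ^ 72 * expThr G H * Real.log (H.card + 1)) ?_ hle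
    · linarith
    · have h1 : (0 : ℝ) ≤ 384 * 2 ^ 72 * expThr G H := by positivity
      calc 384 * 2 ^ 72 * expThr G H * Real.log ((H.card + 1) / (1 / 2))
          ≤ 384 * 2 ^ 72 * expThr G H * (2 * Real.log (H.card + 1)) :=
            mul_le_mul_of_nonneg_left hlog h1
        _ = _ := by ring
  · exact (thr_isLeast G H).1.2.1.trans (le_of_lt (not_le.1 hle))

/-- The expectation threshold is a lower bound for the threshold. -/
theorem expThr_le_thr (H : Finset X) : expThr G H ≤ thr G H := by
  classical
  obtain ⟨⟨h0, h1, h2⟩, _⟩ := thr_isLeast G H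
  apply (expThr_isLeast G H).2
  refine ⟨h0, h1, ?_⟩
  intro F hF
  refine h2.trans ?_
  unfold probTranslate expTranslates
  apply Finset.sum_le_sum
  intro W _
  have hw : 0 ≤ weight (thr G H) W := by
    unfold weight
    have h3 : 0 ≤ 1 - thr G H := by linarith
    positivity
  split_ifs with h
  · obtain ⟨g, hg⟩ := h
    have h4 : (1 : ℝ) ≤ (numIn G F W : ℝ) := by
      have h5 : g • F ∈ (translates G F).filter fun T => T ⊆ W :=
        mem_filter.2 ⟨(mem_translates G F _).2 ⟨g, rfl⟩,
          (Finset.smul_finset_subset_smul_finset hF).trans hg⟩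
      have h6 : 0 < numIn G F W := Finset.card_pos.2 ⟨_, h5⟩
      exact_mod_cast h6
    nlinarith
  · positivity

end Basic

end Vale.Agent.P064.Act
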