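import Vale.Agent.P064.Defs
import Mathlib.GroupTheory.GroupAction.SubMulAction.Combination

/-!
Thresholds for a finite group acting on a finite set.

`X_p` denotes the random subset of the finite set `X` which contains every point of `X`
independently with probability `p`. A translate of a subset `F` of `X` is a set `g • F` with
`g` in the group `G` acting on `X`.
-/

namespace Vale.Agent.P064.Act

open Finset
open scoped Pointwise

variable {X : Type*} [Fintype X] [DecidableEq X]

/-- The probability that `X_p = W`. -/
noncomputable def weight (p : ℝ) (W : Finset X) : ℝ :=
  p ^ W.card * (1 - p) ^ (Fintype.card X - W.card)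

variable (G : Type*) [Group G] [Fintype G] [MulAction G X]

open Classical in
/-- The probability that `X_p` contains a translate of `H`. -/
noncomputable def probTranslate (H : Finset X) (p : ℝ) : ℝ :=
  ∑ W : Finset X, if ∃ g : G, g • H ⊆ W then weight p W else 0

/-- The set of all (distinct) translates of `F`. -/
def translates (F : Finset X) : Finset (Finset X) := univ.image fun g : G => g • F

/-- The number of translates of `F` contained in `W`. -/
def numIn (F W : Finset X) : ℕ := ((translates G F).filter fun T => T ⊆ W).card

/-- The expected number of translates of `F` contained in `X_p`. -/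
noncomputable def expTranslates (F : Finset X) (p : ℝ) : ℝ :=
  ∑ W : Finset X, weight p W * (numIn G F W : ℝ)

/-- The threshold for containing a translate of `H`: the least `p` such that `X_p` contains a
translate of `H` with probability at least one half. -/
noncomputable def thr (H : Finset X) : ℝ :=
  sInf {p : ℝ | 0 ≤ p ∧ p ≤ 1 ∧ 1 / 2 ≤ probTranslate G H p}

/-- The expectation threshold of `H`: the least `p` such that, for every subset `F` of `H`, the
expected number of translates of `F` in `X_p` is at least one half. -/
noncomputable def expThr (H : Finset X) : ℝ :=
  sInf {p : ℝ | 0 ≤ p ∧ p ≤ 1 ∧ ∀ F ⊆ H, 1 / 2 ≤ expTranslates G F p}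

/-- The larger expectation threshold of `H`: the least `p` such that, for every subset `F` of
`H`, the expected number of translates of `F` in `X_p` is at least half the number of
translates of `F` contained in `H`. -/
noncomputable def expThr' (H : Finset X) : ℝ :=
  sInf {p : ℝ | 0 ≤ p ∧ p ≤ 1 ∧ ∀ F ⊆ H, (numIn G F H : ℝ) / 2 ≤ expTranslates G F p}

end Vale.Agent.P064.Act
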