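import Vale.Agent.P064.Bdl.B1
import Vale.Agent.P064.H444.Defs

/-!
The iteration with a prescribed error probability, and the general threshold theorem for a
finite group acting on a finite set.
-/

namespace Vale.Agent.P064.Act

open Finset Vale.Agent.P064 Vale.Agent.P064.Multi
open scoped Pointwise

section Iter

variable {X : Type*} [Fintype X] [DecidableEq X]

open Classical in
/-- Main iteration theorem, with `N` rounds and error `4 ^ R (3/10) ^ N`. -/
theorem good_main_eps {B : Finset X → Prop} {ρ p P ε : ℝ} {f : ℕ → ℕ} (hp0 : 0 < p) (hp1 : p ≤ 1)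
    (hρ0 : 0 ≤ ρ) (hρ : ρ ≤ p * (1 / 2 : ℝ) ^ 72) (k N : ℕ)
    (hf : ∀ j < k, 8 * f (j + 1) ≤ f j) (hg : Good B ρ f k 0 ∅ ∅)
    (hε : (4 : ℝ) ^ (Nat.log 2 (f 0) + 1) * (3 / 10 : ℝ) ^ N ≤ ε)
    (hP : (N : ℝ) * p ≤ P) (hP1 : P ≤ 1) :
    1 - ε ≤ ES P univ (fun W => if ∃ D, B D ∧ D ⊆ W then (1 : ℝ) else 0) := by
  set R := Nat.log 2 (f 0) + 1 with hR
  have h0 : f 0 / 2 ^ (0 + R) = 0 := by
    rw [Nat.zero_add]
    apply Nat.div_eq_of_lt
    exact Nat.lt_pow_succ_log_self (by norm_num) _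
  have h1 := Fl_bound hp0 hp1 hρ0 hρ k hf N R 0 k ∅ ∅ le_rfl h0 hg (Subset.refl _)
  have hq := qs_bounds (fun _ => p) N (fun j _ => ⟨hp0.le, hp1⟩)
  obtain ⟨q0, q1, q2⟩ := hq
  rw [Finset.sum_const, Finset.card_range, nsmul_eq_mul] at q2
  have q3 : qs (fun _ => p) N ≤ P := q2.trans hP
  rw [Fl_eq] at h1
  have h3 : ES (qs (fun _ => p) N) univ (fun W : Finset X => Fl B p 0 (∅ ∪ W)) =
      1 - ES (qs (fun _ => p) N) univ
        (fun W => if ∃ D, B D ∧ D ⊆ W then (1 : ℝ) else 0) := by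
    have e : (fun W : Finset X => Fl B p 0 (∅ ∪ W)) = fun W =>
        1 + (-1) * (if ∃ D, B D ∧ D ⊆ W then (1 : ℝ) else 0) := by
      funext W
      simp only [Fl, Finset.empty_union]
      split_ifs <;> norm_num
    rw [e, ES_add, ES_const, ES_mul]
    ring
  rw [h3] at h1
  have h4 : ES (qs (fun _ => p) N) univ
      (fun W : Finset X => if ∃ D, B D ∧ D ⊆ W then (1 : ℝ) else 0) ≤
      ES P univ (fun W => if ∃ D, B D ∧ D ⊆ W then (1 : ℝ) else 0) := by
    apply ES_mono_p q0 q3 hP1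
    intro W Z
    split_ifs with a b b
    · exact le_rfl
    · obtain ⟨D, hD, hs⟩ := a
      exact absurd ⟨D, hD, hs.trans subset_union_left⟩ b
    · norm_num
    · exact le_rfl
  linarith

end Iter

section FromChain

variable {X G : Type*} [Fintype X] [DecidableEq X] [Group G] [MulAction G X]

open Classical in
theorem from_chain_eps (H : Finset X) (ρ P ε : ℝ) (N : ℕ) (hN : 1 ≤ N) (hρ : 0 < ρ)
    (F : ℕ → Finset X) (hF0 : F 0 = H)
    (hF : ∀ h, 8 * (F (h + 1)).card ≤ (F h).card)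
    (hker : ∀ h A, (∃ g : G, g • F (h + 1) = A) → ∃ κ : Finset X → ℝ, (∀ D, 0 ≤ κ D) ∧
      (∀ D, κ D ≠ 0 → Disjoint D A ∧ ∃ g : G, g • F h = A ∪ D) ∧ ∑ D, κ D = 1 ∧
      ∀ J : Finset X, ∑ D, (if J ⊆ D then κ D else 0) ≤ ρ ^ J.card)
    (hε : (4 : ℝ) ^ (Nat.log 2 H.card + 1) * (3 / 10 : ℝ) ^ N ≤ ε)
    (hP : (N : ℝ) * (2 ^ 72 * ρ) ≤ P) (hP1 : P ≤ 1) :
    1 - ε ≤ ES P univ (fun W => if ∃ g : G, g • H ⊆ W then (1 : ℝ) else 0) := by
  -- the chain reaches the empty set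
  have hpow : ∀ h, 8 ^ h * (F h).card ≤ H.card := by
    intro h
    induction h with
    | zero => rw [hF0]; simp
    | succ h ih =>
      calc 8 ^ (h + 1) * (F (h + 1)).card = 8 ^ h * (8 * (F (h + 1)).card) := by ring
        _ ≤ 8 ^ h * (F h).card := Nat.mul_le_mul_left _ (hF h)
        _ ≤ H.card := ih
  have hk : F (H.card + 1) = ∅ := by
    rw [← Finset.card_eq_zero]
    by_contra h0
    have h1 := hpow (H.card + 1)
    have h2 : H.card + 1 < 8 ^ (H.card + 1) := Nat.lt_pow_self (by norm_num)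
    have h3 : 8 ^ (H.card + 1) * 1 ≤ 8 ^ (H.card + 1) * (F (H.card + 1)).card :=
      Nat.mul_le_mul_left _ (Nat.pos_of_ne_zero h0)
    omega
  have hg : Good (fun D => ∃ g : G, g • F 0 = D) ρ (fun j => (F j).card) H.card 0 ∅ ∅ := by
    apply good_init F ρ hker
    exact ⟨1, by rw [hk]; simp⟩
  have hN1 : (1 : ℝ) ≤ N := by exact_mod_cast hN
  have hp0 : 0 < 2 ^ 72 * ρ := by positivity
  have hp1 : 2 ^ 72 * ρ ≤ 1 := by
    have : 2 ^ 72 * ρ ≤ (N : ℝ) * (2 ^ 72 * ρ) := by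
      nlinarith
    linarith
  have hmain := good_main_eps (B := fun D => ∃ g : G, g • F 0 = D) (ρ := ρ) (p := 2 ^ 72 * ρ)
    (P := P) (ε := ε)
    (f := fun j => (F j).card) hp0 hp1 hρ.le
    (by rw [mul_comm (2 ^ 72 : ℝ) ρ, mul_assoc, ← mul_pow]; norm_num)
    H.card N (fun j _ => hF j) hg (by simpa [hF0] using hε) hP hP1
  refine hmain.trans (le_of_eq ?_)
  apply Multi.ES_congr
  intro W _
  have : (∃ D : Finset X, (∃ g : G, g • F 0 = D) ∧ D ⊆ W) ↔ ∃ g : G, g • H ⊆ W := by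
    constructor
    · rintro ⟨D, ⟨g, rfl⟩, h⟩
      exact ⟨g, by rw [← hF0]; exact h⟩
    · rintro ⟨g, h⟩
      exact ⟨g • F 0, ⟨g, rfl⟩, by rw [hF0]; exact h⟩
  simp only [this]

end FromChain

open Classical in
/-- The abstract threshold theorem for group actions, with `N` rounds. -/
theorem abs_threshold_eps {X G : Type*} [Fintype X] [DecidableEq X] [Group G] [Fintype G]
    [MulAction G X] (H : Finset X) (q : ℝ) (hq0 : 0 < q)
    (hq : ∀ F ⊆ H, F.Nonempty → ((univ.filter fun g : G => g • F = F).card : ℝ) ≤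
      Fintype.card G * q ^ F.card)
    (N : ℕ) (hN : 1 ≤ N) (ε p : ℝ)
    (hε : (4 : ℝ) ^ (Nat.log 2 H.card + 1) * (3 / 10 : ℝ) ^ N ≤ ε)
    (hp : 24 * 2 ^ 72 * N * q ≤ p) (hp1 : p ≤ 1) :
    1 - ε ≤ ES p univ (fun W => if ∃ g : G, g • H ⊆ W then (1 : ℝ) else 0) := by
  obtain ⟨F, hF0, hF, hker⟩ := chain_kernel (G := G) H q hq0 8 (by norm_num) hq
  have hP : (N : ℝ) * (2 ^ 72 * (3 * (8 : ℕ) * q)) ≤ p := by
    refine le_trans (le_of_eq ?_) hp
    push_cast
    ring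
  have h := from_chain_eps (G := G) H (3 * (8 : ℕ) * q) p ε N hN (by positivity) F hF0 hF
    hker hε hP hp1
  refine h.trans (le_of_eq ?_)
  apply Multi.ES_congr
  intro W _
  congr

/-- The number of rounds. -/
theorem rounds_exist {h : ℕ} (hh : 1 ≤ h) {ε : ℝ} (hε0 : 0 < ε) (hε1 : ε ≤ 1 / 2) :
    ∃ N : ℕ, 1 ≤ N ∧ (4 : ℝ) ^ (Nat.log 2 h + 1) * (3 / 10 : ℝ) ^ N ≤ ε ∧
      (N : ℝ) ≤ 8 * Real.log ((h + 1) / ε) := by
  have hh' : (1 : ℝ) ≤ h := by exact_mod_cast hh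
  have hlog2 : (0.6931471803 : ℝ) < Real.log 2 := Real.log_two_gt_d9
  have hlog2' : Real.log 2 < (0.6931471808 : ℝ) := Real.log_two_lt_d9
  have hL0 : Real.log ((h + 1) / ε) = Real.log (h + 1) - Real.log ε :=
    Real.log_div (by positivity) hε0.ne'
  have hLe : Real.log ε ≤ - Real.log 2 := by
    have := Real.log_le_log hε0 hε1
    rwa [one_div, Real.log_inv] at this
  have hLh : Real.log 2 ≤ Real.log ((h : ℝ) + 1) := Real.log_le_log (by norm_num) (by linarith)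
  have hlh : (Nat.log 2 h : ℝ) * Real.log 2 ≤ Real.log (h + 1) := by
    rw [← Real.log_pow]
    apply Real.log_le_log (by positivity)
    have : 2 ^ Nat.log 2 h ≤ h := Nat.pow_log_le_self 2 (by omega)
    have h2 : ((2 : ℝ)) ^ Nat.log 2 h ≤ h := by exact_mod_cast this
    linarith
  -- `log (10/3) ≥ 1.2`
  have h103 : (1.2 : ℝ) ≤ Real.log (10 / 3) := by
    rw [Real.le_log_iff_exp_le (by norm_num)]
    have h1 : Real.exp 1.2 = Real.exp 1 * Real.exp 0.2 := by rw [← Real.exp_add]; norm_num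
    have h2 := Real.exp_one_lt_d9
    have h3 : Real.exp 0.2 ≤ 1.2215 := by
      have h4 := Real.exp_bound' (x := 0.2) (by norm_num) (by norm_num) (n := 4) (by norm_num)
      refine h4.trans ?_
      norm_num [Finset.sum_range_succ, Nat.factorial]
    have h5 := Real.exp_pos 0.2
    rw [h1]
    nlinarith
  set L := Real.log ((h + 1) / ε) with hL
  have hLpos : 1.38 ≤ L := by rw [hL0]; linarith
  refine ⟨Nat.ceil (4 * L), ?_, ?_, ?_⟩
  · rw [Nat.one_le_ceil_iff]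
    linarith
  · -- compare logarithms
    have hN : 4 * L ≤ (Nat.ceil (4 * L) : ℝ) := Nat.le_ceil _
    set N := Nat.ceil (4 * L) with hNd
    rw [← Real.log_le_log_iff (by positivity) hε0,
      Real.log_mul (by positivity) (by positivity), Real.log_pow, Real.log_pow]
    have e1 : Real.log (4 : ℝ) = 2 * Real.log 2 := by
      rw [show (4 : ℝ) = 2 ^ 2 by norm_num, Real.log_pow]; norm_num
    have e2 : Real.log (3 / 10 : ℝ) = - Real.log (10 / 3) := by
      rw [← Real.log_inv]; norm_num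
    rw [e1, e2]
    push_cast
    have h6 : 4 * L * 1.2 ≤ (N : ℝ) * Real.log (10 / 3) := by
      apply mul_le_mul hN h103 (by norm_num)
      exact (Nat.cast_nonneg _)
    have h7 : ((Nat.log 2 h : ℝ) + 1) * (2 * Real.log 2) ≤ 2 * Real.log (h + 1) + 2 * Real.log 2 := by
      linarith
    rw [hL0] at h6
    linarith
  · have h8 := Nat.ceil_lt_add_one (show (0 : ℝ) ≤ 4 * L by linarith)
    linarith

end Vale.Agent.P064.Act
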